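import Vale.Agent.P092R1.One
import Vale.Agent.P092GV.One
import Vale.Agent.P092PG.Stmt
import Vale.Agent.P092LQ.Fin
import Vale.Agent.P092.H759.TL.TPi
import Mathlib.Analysis.Normed.Unbundled.SpectralNorm

/-!
P092 (helper26): from the core statement in higher rank and the product glue to the lattices of Q1.
-/

set_option linter.all false

open Filter Topology

namespace Vale.Agent.P092R1

open Vale.Agent.P092 Vale.Agent.P092GP Vale.Agent.P092AG Vale.Agent.P092TO Vale.Agent.P092GV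
open Vale.Agent.P092.H678.OV

variable {k : Type} [NontriviallyNormedField k]

theorem abv_of (K : Type) [Field K] [Algebra k K] [Algebra.IsAlgebraic k K] (φ : k →+* ℂ)
    (h : ∀ x, ‖φ x‖ = ‖x‖) : ∃ v : AbsoluteValue K ℝ, ∀ x : k, v (algebraMap k K x) = ‖x‖ := by
  letI := φ.toAlgebra
  let f : K →ₐ[k] ℂ := IsAlgClosed.lift
  exact ⟨⟨⟨fun x => ‖f x‖, fun x y => by rw [map_mul, norm_mul]⟩, fun x => norm_nonneg _,
    fun x => by simp, fun x y => by simpa using norm_add_le (f x) (f y)⟩,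
    fun x => (congrArg norm (f.commutes x)).trans (h x)⟩

/-- the absolute value of a local field extends to the algebraic extensions -/
theorem exists_abv [ProperSpace k] (hk : UN.LocK k) (K : Type) [Field K] [Algebra k K]
    [Algebra.IsAlgebraic k K] : ∃ v : AbsoluteValue K ℝ, ∀ x : k, v (algebraMap k K x) = ‖x‖ := by
  rcases hk with ⟨φ, h⟩ | ⟨φ, h⟩ | h
  · exact abv_of K (Complex.ofRealHom.comp φ) fun x => (Complex.norm_real _).trans (h x)
  · exact abv_of K φ h
  · letI := spectralNorm.normedField k K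
    exact ⟨NormedField.toAbsoluteValue K, fun x => spectralNorm_extends x⟩

/-- the linear package of the group of points -/
theorem lit_all [ProperSpace k] (hk : UN.LocK k) {K : Type} [Field K] [Algebra k K] [IsAlgClosed K]
    [Algebra.IsAlgebraic k K] {n : ℕ} {𝔾 : Subgroup (GL (Fin n) K)} (h : AbsSimple k 𝔾)
    (hc : ¬ CompactSpace (pts k 𝔾)) :
    ∃ L : LD k (pts k 𝔾), L.LS ∧ (RankOne (pts k 𝔾) → L.R.r = 1) := by
  obtain ⟨v, hv⟩ := exists_abv hk K
  letI := v.toNormedField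
  letI : NormedAlgebra k K := ⟨fun r x => by
    rw [Algebra.smul_def]; exact ((v.map_mul _ _).trans (congrArg (· * v x) (hv r))).le⟩
  obtain ⟨c, 𝔤, hn, hs, hm, hY⟩ := b1 K (P092A1.nice_pts h) (P092A1.simp_pts' h)
    fun a => hc (isCompact_iff_compactSpace.1 a)
  obtain ⟨L, H, om, ho, -⟩ := lp_of' K hk hn hs hm hY
  let e : pts k 𝔾 ≃* cj c (pts k 𝔾) := (MulAut.conj c).subgroupMap _
  have he : IsHomeomorph e := isHomeomorph_iff_exists_inverse.2
    ⟨Continuous.subtype_mk (f := fun g : pts k 𝔾 => c * g.1 * c⁻¹) (by fun_prop) _, e.symm,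
      e.left_inv, e.right_inv,
      Continuous.subtype_mk (f := fun g : cj c (pts k 𝔾) => c⁻¹ * g.1 * c) (by fun_prop) _⟩
  obtain ⟨L', a, b, d⟩ := P092LS.ls_iso (P092CQ.ls_of hn hs H H.ok.root.pos) e he
  refine ⟨L', a, fun hr => ?_⟩
  rw [b]
  by_contra h1
  have h2 : 1 < L.R.r := lt_of_le_of_ne H.ok.root.pos (Ne.symm h1)
  refine hr c (om ⟨0, H.ok.root.pos⟩).1 (om ⟨1, h2⟩).1 (fun t => mem_cj.1 ((om _).2 t))
    (fun t => mem_cj.1 ((om _).2 t)) ?_
  have h3 := ho.comp ![⟨0, H.ok.root.pos⟩, ⟨1, h2⟩] (by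
    intro x y e
    fin_cases x <;> fin_cases y <;> simp_all)
  convert h3 using 1
  ext x
  fin_cases x <;> rfl

/-- the core statement in rank at least two -/
def HRS (k : Type) [NontriviallyNormedField k] : Prop :=
  ∀ (G : Type) [Group G] [TopologicalSpace G] (L : LD k G), L.LS → L.Gp = ⊤ →
    Subgroup.center G = ⊥ → UN.KazT G → 2 ≤ L.R.r → OverStmt G

theorem core_one {R : P183CH.RS} (h : R.r = 1) : Core k R :=
  fun _ _ _ _ a r b c d => P092RS.over_lp a.lp b c d (r ▸ h)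

theorem core_all (h : HRS k) (R : P183CH.RS) : Core k R := fun G _ _ L a r b c d =>
  (Nat.lt_or_ge L.R.r 2).elim
    (fun e => P092RS.over_lp a.lp b c d (le_antisymm (Nat.le_of_lt_succ e) a.lp.ok.root.pos))
    (h G L a b c d)

/-- lattices of products of groups with the linear package -/
theorem super_pi (hP : P092PG.PGS) {I : Type} [Fintype I] {k G : I → Type}
    [∀ i, NontriviallyNormedField (k i)] [∀ i, Group (G i)] [∀ i, TopologicalSpace (G i)]
    {L : ∀ i, LD (k i) (G i)} (H : ∀ i, (L i).LS) (hC : ∀ i, Core (k i) (L i).R)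
    (hT : ∀ i, UN.KazT (G i)) (Γ : Subgroup (∀ i, G i)) (hl : UN.IsLattice Γ) (hicc : UN.ICC Γ) :
    UN.SuperAll Γ := by
  classical
  haveI := fun i => (H i).lp.top
  haveI := fun i => (H i).lp.sc
  haveI := fun i => (H i).lp.t2
  haveI := fun i => (H i).lp.lc
  have hl' : UN.IsLattice Γ.subtype.range := by rw [Subgroup.range_subtype]; exact hl
  have hΓ : UN.PropT Γ :=
    H759.TL.propT_of_lattice (H759.TL.kazT_pi hT) Γ.subtype Subtype.val_injective hl'
  obtain ⟨E, L', q, a, b, c⟩ := shrink H hC hΓ Γ.subtype Subtype.val_injective ⟨hl'.disc, hl'.covol⟩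
  exact UN.superAll_of (hP Γ I (fun i => E i) q hicc hΓ
    (fun i => P092LQ.bpl_ls (a i).1 (a i).2.2.1) (fun i => (a i).2.2.2.2) b c)

/-- **Q1 from the product glue and the core statement in higher rank.** -/
theorem q1 (hP : P092PG.PGS) (hH : ∀ (k : Type) [NontriviallyNormedField k], HRS k)
    (I : Type) [Fintype I] (k K : I → Type) [∀ i, NontriviallyNormedField (k i)]
    [∀ i, ProperSpace (k i)] [∀ i, Field (K i)] [∀ i, Algebra (k i) (K i)]
    [∀ i, IsAlgClosure (k i) (K i)] (n : I → ℕ) (𝔾 : ∀ i, Subgroup (GL (Fin (n i)) (K i)))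
    (h : ∀ i, UN.LocK (k i) ∧ AbsSimple (k i) (𝔾 i) ∧ ¬ CompactSpace (pts (k i) (𝔾 i)) ∧
      UN.HasTC (pts (k i) (𝔾 i)))
    (Γ : Subgroup (∀ i, pts (k i) (𝔾 i))) (hl : UN.IsLattice Γ) (hicc : UN.ICC Γ) :
    UN.SuperAll Γ := by
  haveI := fun i => IsAlgClosure.isAlgClosed (k i) (K := K i)
  choose L a _ using fun i => lit_all (h i).1 (h i).2.1 (h i).2.2.1
  exact super_pi hP a (fun i => core_all (hH _) _) (fun i => UN.kazT_of_hasTC (h i).2.2.2) Γ hl hicc

end Vale.Agent.P092R1
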