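import Vale.Agent.P092.H759.TL.TLat
import Vale.Agent.P092.UN.StT

/-!
P092 (helper26): a group with a lattice which has property (T) has property (T).
-/

set_option linter.all false

open MeasureTheory Filter Topology Set
open scoped InnerProductSpace

namespace Vale.Agent.P092R1

open Vale.Agent.P092

theorem propT_vec {Γ : Type} [Group Γ] (h : UN.PropT Γ) : ∃ (Q : Finset Γ) (κ : ℝ), 0 < κ ∧
    ∀ (H : Type) [NormedAddCommGroup H] [InnerProductSpace ℂ H] [CompleteSpace H]
      (σ : Γ →* (H →L[ℂ] H)), (∀ g v, ‖σ g v‖ = ‖v‖) → ∀ (v : H) (δ : ℝ),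
        (∀ g ∈ Q, ‖σ g v - v‖ ≤ δ) → ∃ a, (∀ g, σ g a = a) ∧ κ * ‖a - v‖ ≤ δ := by
  obtain ⟨Q, κ, hκ, h⟩ := h
  refine ⟨Q, κ, hκ, fun H _ _ _ σ hσ v δ hv => ?_⟩
  let K : Submodule ℂ H := ⨅ g : Γ, LinearMap.ker (σ g - 1).toLinearMap
  have hK : ∀ w, w ∈ K ↔ ∀ g, σ g w = w := fun w => by
    simp only [K, Submodule.mem_iInf, LinearMap.mem_ker, ContinuousLinearMap.coe_coe,
      ContinuousLinearMap.sub_apply, ContinuousLinearMap.one_apply, sub_eq_zero]
  haveI : CompleteSpace K := (show IsClosed (K : Set H) by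
    rw [show (K : Set H) = ⋂ g, {w | σ g w = w} from Set.ext fun w => by
      rw [SetLike.mem_coe, hK, mem_iInter]; rfl]
    exact isClosed_iInter fun g => isClosed_eq (σ g).continuous continuous_id).completeSpace_coe
  have h1 : ∀ g, ∀ w ∈ Kᗮ, σ g w ∈ Kᗮ := fun g w hw => (K.mem_orthogonal _).2 fun u hu => by
    rw [← ContinuousLinearMap.adjoint_inner_left, H759.TL.adj_of_norm hσ, (hK u).1 hu]
    exact (K.mem_orthogonal _).1 hw u hu
  let τ : Γ →* (Kᗮ →L[ℂ] Kᗮ) :=
    { toFun := fun g => ((σ g).comp Kᗮ.subtypeL).codRestrict Kᗮ fun w => h1 g w w.2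
      map_one' := by
        ext w
        show σ 1 w = w
        rw [map_one]; rfl
      map_mul' := fun g g' => by
        ext w
        show σ (g * g') w = σ g (σ g' w)
        rw [map_mul]; rfl }
  obtain ⟨a, ha, b, hb, rfl⟩ := K.exists_add_mem_mem_orthogonal v
  obtain ⟨q, hq, h2⟩ := h Kᗮ τ (fun g w => hσ g w)
    (fun w hw => Subtype.ext (inner_self_eq_zero.1 ((K.mem_orthogonal _).1 w.2 w
      ((hK w).2 fun g => congrArg Subtype.val (hw g))))) ⟨b, hb⟩
  have h3 : σ q (a + b) - (a + b) = σ q b - b := by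
    rw [map_add, (hK a).1 ha, add_sub_add_left_eq_sub]
  refine ⟨a, (hK a).1 ha, ?_⟩
  rw [sub_add_cancel_left, norm_neg]
  exact h2.trans ((congrArg norm h3).symm.le.trans (hv q hq))

theorem hasT_of_propT {Γ : Type} [Group Γ] (h : UN.PropT Γ) : UN.HasT Γ := by
  obtain ⟨Q, κ, hκ, h⟩ := h
  refine ⟨Q, κ, hκ, fun H _ _ _ σ h1 h2 h3 h4 h5 v => ?_⟩
  exact h H
    { toFun := fun g => ((h1 g).mk' _).mkContinuous 1 fun v => by rw [one_mul]; exact (h2 g v).le
      map_one' := ContinuousLinearMap.ext h3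
      map_mul' := fun g g' => ContinuousLinearMap.ext (h4 g g') } h2 h5 v

theorem kazT_of_lattice {E Γ : Type} [Group E] [TopologicalSpace E] [IsTopologicalGroup E]
    [LocallyCompactSpace E] [SecondCountableTopology E] [Group Γ] (i : Γ →* E)
    (hl : UN.IsLattice i.range) (hT : UN.PropT Γ) : UN.KazT E := by
  obtain ⟨Q, κ, hκ, h⟩ := propT_vec hT
  borelize (E ⧸ i.range)
  obtain ⟨ν, _, hν⟩ := H759.TL.exists_prob hl
  let U : ℕ → Set (E ⧸ i.range) := fun n => ((↑) : E → E ⧸ i.range) ''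
    interior (CompactExhaustion.choice E n)
  have hU : ∀ n, IsOpen (U n) := fun n => QuotientGroup.isOpenMap_coe _ isOpen_interior
  have h1 := tendsto_measure_iInter_atTop (μ := ν) (s := fun n => (U n)ᶜ)
    (fun n => (hU n).measurableSet.compl.nullMeasurableSet)
    (fun a b e => compl_subset_compl.2 (image_mono (interior_mono
      ((CompactExhaustion.choice E).subset e)))) ⟨0, measure_ne_top _ _⟩
  have h2 : ⋂ n, (U n)ᶜ = ∅ := eq_empty_of_forall_notMem fun x hx => by
    obtain ⟨g, rfl⟩ := QuotientGroup.mk_surjective x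
    obtain ⟨n, hn⟩ := (CompactExhaustion.choice E).exists_mem_nhds g
    exact mem_iInter.1 hx n ⟨g, mem_interior_iff_mem_nhds.2 hn, rfl⟩
  rw [h2, measure_empty] at h1
  obtain ⟨n, hn⟩ := (((ENNReal.tendsto_toReal ENNReal.zero_ne_top).comp h1).eventually_lt_const
    (show ENNReal.toReal 0 < 1 / 4 by norm_num)).exists
  have hn' : ν.real (U n)ᶜ < 1 / 4 := hn
  refine ⟨insert 1 (i '' Q ∪ CompactExhaustion.choice E n), (4 * (κ⁻¹ + 1))⁻¹,
    ((Q.finite_toSet.image i).isCompact.union ((CompactExhaustion.choice E).isCompact n)).insert 1,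
    by positivity, fun H _ _ _ σ hσ hc h0 v => ?_⟩
  by_contra hv
  simp only [not_exists, not_and, not_le] at hv
  set δ := (4 * (κ⁻¹ + 1))⁻¹ * ‖v‖ with hδ
  have hδ0 : 0 < δ := (norm_nonneg _).trans_lt (hv 1 (mem_insert _ _))
  obtain ⟨a, ha, hb⟩ := h H (σ.comp i) (fun g v => hσ _ v) v δ fun g hg =>
    (hv _ (mem_insert_of_mem _ (Or.inl ⟨g, hg, rfl⟩))).le
  let F : E ⧸ i.range → H := fun x => Quotient.liftOn' x (fun g => σ g a) fun g g' e => by
    obtain ⟨γ, hγ⟩ := QuotientGroup.leftRel_apply.1 e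
    have : g' = g * i γ := by rw [hγ, mul_inv_cancel_left]
    show σ g a = σ g' a
    rw [this, map_mul]
    exact congrArg (σ g) (ha γ).symm
  have hF : Continuous F := QuotientGroup.isQuotientMap_mk _ |>.continuous_iff.2 (hc a)
  have hFi : Integrable F ν := (integrable_const ‖a‖).mono' hF.aestronglyMeasurable
    (Eventually.of_forall fun x => by
      obtain ⟨g, rfl⟩ := QuotientGroup.mk_surjective x
      exact (hσ g a).le)
  have h3 : ∫ x, F x ∂ν = 0 := h0 _ fun g => by
    rw [← (σ g).integral_comp_comm hFi]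
    conv_rhs => rw [← hν g, integral_map (continuous_const_smul g).measurable.aemeasurable
      hF.aestronglyMeasurable]
    refine integral_congr_ae (Eventually.of_forall fun x => ?_)
    obtain ⟨g', rfl⟩ := QuotientGroup.mk_surjective x
    show σ g (σ g' a) = σ (g * g') a
    rw [map_mul]; rfl
  have h4 : ‖∫ x, (F x - v) ∂ν‖ ≤
      ∫ x, ((‖a - v‖ + δ) + (U n)ᶜ.indicator (fun _ => 2 * ‖v‖) x) ∂ν := by
    refine norm_integral_le_of_norm_le ((integrable_const _).add
      ((integrable_const _).indicator (hU n).measurableSet.compl)) (Eventually.of_forall fun x => ?_)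
    have h5 : ∀ g : E, ‖F g - v‖ ≤ ‖a - v‖ + ‖σ g v - v‖ := fun g => by
      rw [← hσ g (a - v), map_sub]
      exact norm_sub_le_norm_sub_add_norm_sub _ _ _
    by_cases hx : x ∈ U n
    · obtain ⟨g, hg, rfl⟩ := hx
      rw [indicator_of_notMem (not_not.2 ⟨g, hg, rfl⟩), add_zero]
      exact (h5 g).trans (add_le_add_right
        (hv g (mem_insert_of_mem _ (Or.inr (interior_subset hg)))).le _)
    · obtain ⟨g, rfl⟩ := QuotientGroup.mk_surjective x
      rw [indicator_of_mem hx]
      have h6 := norm_sub_le (σ g v) v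
      rw [hσ] at h6
      linarith [h5 g]
  rw [integral_sub hFi (integrable_const _), h3, integral_add (integrable_const _)
    ((integrable_const _).indicator (hU n).measurableSet.compl),
    integral_indicator_const _ (hU n).measurableSet.compl] at h4
  simp only [integral_const, probReal_univ, one_smul, zero_sub, norm_neg, smul_eq_mul] at h4
  have h7 : ‖a - v‖ ≤ κ⁻¹ * δ := by rwa [le_inv_mul_iff₀ hκ]
  have h8 : (κ⁻¹ + 1) * δ = ‖v‖ / 4 := by
    rw [hδ]
    field_simp
  have h9 : 0 < (κ⁻¹ + 1) * δ := by positivity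
  nlinarith [norm_nonneg v]

end Vale.Agent.P092R1
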