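import Vale.Agent.P092R1.St
import Vale.Agent.P092R1.Kaz
import Vale.Agent.P092RS.End
import Vale.Agent.P092CQ.Lit
import Vale.Agent.P092AL.Asm
import Vale.Agent.P092TO.B1
import Vale.Agent.P092A1.Nice
import Vale.Agent.P092LS.QuoT
import Vale.Agent.P092.H678.O.Cls
import Vale.Agent.P092.H793.Lat
import Vale.Agent.P092.VR.H978.FN
import Vale.Agent.P092.UN.NfV
import Vale.Agent.P092.PA.Fac

/-!
P092 (helper26): lattices in one simple group.
-/

set_option linter.all false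

open Filter Topology

namespace Vale.Agent.P092R1

open Vale.Agent.P092 Vale.Agent.P092GP Vale.Agent.P092AG Vale.Agent.P092TO
open Vale.Agent.P092.H678.OV

variable {k : Type} [NontriviallyNormedField k]

/-- from the adjoint simple group to the lattices of `G` -/
theorem super_ls {G : Type} [Group G] [TopologicalSpace G] {L : LD k G} (H : L.LS)
    (ho : IsOpen (L.Gp : Set G)) (hT : UN.KazT G)
    (hO : ∀ (E : Type) [Group E] [TopologicalSpace E] (L' : LD k E), L'.LS → L'.Gp = ⊤ →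
      Subgroup.center E = ⊥ → UN.KazT E → L'.R = L.R → OverStmt E)
    {Γ : Type} [Group Γ] [Infinite Γ] (hicc : UN.ICC Γ) (i : Γ →* G) (hi : Function.Injective i)
    (hl : UN.IsLattice i.range) : UN.SuperAll Γ := by
  haveI := H.lp.top
  haveI := H.lp.t2
  haveI := H.lp.lc
  haveI := H.lp.sc
  haveI hfi := H.quo Γ (hasT_of_propT (H759.TL.propT_of_lattice hT i hi hl)) i
  let Δ := L.Gp.comap i
  have hl₀ : H515.IsLattice (i.comp Δ.subtype).range := by
    refine VR.H978.isLattice_fi ⟨hl.disc, hl.covol⟩ (by rintro _ ⟨x, rfl⟩; exact ⟨x, rfl⟩) ?_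
    have e : (i.comp Δ.subtype).range.subgroupOf i.range = Δ.map i.rangeRestrict := by
      ext ⟨_, x, rfl⟩
      exact ⟨fun ⟨y, e⟩ => ⟨y, y.2, Subtype.ext e⟩,
        fun ⟨y, a, e⟩ => ⟨⟨y, a⟩, congrArg Subtype.val e⟩⟩
    rw [e]
    exact ⟨fun h0 => hfi.index_ne_zero (Nat.eq_zero_of_zero_dvd
      (h0 ▸ Subgroup.index_map_dvd Δ i.rangeRestrict_surjective))⟩
  have hΔ : UN.PropT Δ := H759.TL.propT_of_lattice hT (i.comp Δ.subtype)
    (hi.comp Subtype.val_injective) ⟨hl₀.disc, hl₀.covol⟩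
  obtain ⟨L₁, a₁, b₁, c₁⟩ := P092LS.ls_sub H le_rfl H.closed
  obtain ⟨L₂, a₂, b₂, c₂, -, d₂⟩ := P092LS.ls_center a₁
  haveI := a₁.lp.t2
  haveI := a₂.lp.t2
  haveI := a₂.lp.lc
  haveI := a₂.lp.sc
  let j : Δ →* L.Gp := (i.comp Δ.subtype).codRestrict L.Gp fun x => x.2
  have hj : H515.St.IsLattice j.range := by
    have h1 := VR.lat_comap L.Gp.subtype Subtype.val_injective continuous_subtype_val
      ho.isOpenMap_subtype_val _ hl₀
    have e : (i.comp Δ.subtype).range.comap L.Gp.subtype = j.range := by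
      ext x
      exact ⟨fun ⟨y, e⟩ => ⟨y, Subtype.ext e⟩, fun ⟨y, e⟩ => ⟨y, congrArg Subtype.val e⟩⟩
    rw [e] at h1
    exact ⟨h1.disc, h1.covol⟩
  have hz : (Subgroup.center L.Gp : Set L.Gp).Finite := a₁.cfin.subset fun g hg u _ =>
    (Subgroup.mem_center_iff.1 hg u).symm
  let p := QuotientGroup.mk' (Subgroup.center L.Gp)
  have hp : H515.St.IsLattice (p.comp j).range := by
    haveI := hj.disc
    rw [MonoidHom.range_comp]
    exact H793.lattice_map p QuotientGroup.continuous_mk (QuotientGroup.mk'_surjective _) hj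
      (H793.discrete_map p (fun C hC => PA.isCompact_preimage_mk _ hz.isCompact hC) _)
  have hΔi : Icc Δ := icc_fi hicc Δ
  have hinj : Function.Injective (p.comp j) := by
    rw [injective_iff_map_eq_one]
    intro g hg
    by_contra hne
    refine hΔi g hne ((Set.finite_singleton g).subset ?_)
    rintro _ ⟨x, rfl⟩
    have h1 := Subgroup.mem_center_iff.1 ((QuotientGroup.eq_one_iff _).1 hg) (j x)
    rw [← map_mul, ← map_mul] at h1
    have h2 : x * g = g * x := Subtype.ext (hi (congrArg Subtype.val h1))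
    rw [Set.mem_singleton_iff, h2, mul_inv_cancel_right]
  haveI : Infinite Δ := by
    by_contra h0
    exact not_finite_iff_infinite.2 ‹Infinite Γ›
      ((Subgroup.finite_iff_finite_and_finiteIndex Δ).2 ⟨not_infinite_iff_finite.1 h0, hfi⟩)
  refine superAll_virt hicc hfi ⟨inferInstance, _, inferInstance, inferInstance, p.comp j,
    hO _ L₂ a₂ ?_ d₂ (kazT_of_lattice (p.comp j) ⟨hp.disc, hp.covol⟩ hΔ) (b₂.trans b₁), hinj, hp⟩
  rw [c₂, c₁, Subgroup.subgroupOf_self]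
  exact Subgroup.map_top_of_surjective _ (QuotientGroup.mk'_surjective _)

theorem open_Gp [CharZero k] {n : ℕ} {G : Subgroup (GL (Fin n) k)} {𝔤 : Submodule k (Mt n k)}
    {L : LD k G} (hN : Nice G 𝔤) (hS : Simp G) (H : L.LP) : IsOpen (L.Gp : Set G) := by
  have := H.prop
  have := H.top
  have h1 : P092CQ.LN G (L.Gp.map G.subtype) := Eventually.of_forall fun g a _ ⟨x, b, e⟩ =>
    ⟨_, H.ok.normal_Gp.conj_mem x b ⟨g, a⟩, e ▸ rfl⟩
  have h2 : (L.Gp.map G.subtype : Set (GL (Fin n) k)).Infinite := by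
    obtain ⟨j, -⟩ := H.ok.dg_simple ⟨0, H.ok.root.pos⟩
    exact Set.infinite_of_injective_forall_mem (f := fun t : k => (L.x (Pi.single j t)).1)
      (fun t t' e => Pi.single_injective j (H.ok.x_inj (Subtype.ext e)))
      fun t => ⟨_, LD.Up_le_Gp (H.ok.x_mem _), rfl⟩
  exact Subgroup.isOpen_of_mem_nhds _ (((continuous_subtype_val.tendsto 1).eventually
    (P092A2.c0' hN hS (Subgroup.map_subtype_le _) h1 h2)).mono fun g a =>
      let ⟨x, b, e⟩ := a g.2
      (Subtype.ext e : x = g) ▸ b)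

/-- the linear package of the group of points, in characteristic zero -/
theorem lit_ls [CharZero k] [ProperSpace k] (hk : UN.LocK k) {K : Type} [NormedField K]
    [NormedAlgebra k K] [IsAlgClosed K] [Algebra.IsAlgebraic k K] {n : ℕ}
    {𝔾 : Subgroup (GL (Fin n) K)} (h : AbsSimple k 𝔾)
    (hc : ¬ IsCompact (pts k 𝔾 : Set (GL (Fin n) k))) :
    ∃ L : LD k (pts k 𝔾), L.LS ∧ IsOpen (L.Gp : Set (pts k 𝔾)) ∧
      (RankOne (pts k 𝔾) → L.R.r = 1) := by
  obtain ⟨c, 𝔤, hn, hs, hm, hY⟩ := b1 K (P092A1.nice_pts h) (P092A1.simp_pts' h) hc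
  obtain ⟨L, H, om, ho, -⟩ := lp_of' K hk hn hs hm hY
  let e : pts k 𝔾 ≃* cj c (pts k 𝔾) := (MulAut.conj c).subgroupMap _
  have he : IsHomeomorph e := isHomeomorph_iff_exists_inverse.2
    ⟨Continuous.subtype_mk (f := fun g : pts k 𝔾 => c * g.1 * c⁻¹) (by fun_prop) _, e.symm,
      e.left_inv, e.right_inv,
      Continuous.subtype_mk (f := fun g : cj c (pts k 𝔾) => c⁻¹ * g.1 * c) (by fun_prop) _⟩
  obtain ⟨L', a, b, d⟩ := P092LS.ls_iso (P092CQ.ls_of hn hs H H.ok.root.pos) e he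
  refine ⟨L', a, d ▸ (open_Gp hn hs H).preimage he.continuous, fun hr => ?_⟩
  rw [b]
  by_contra h1
  have h2 : 1 < L.R.r := lt_of_le_of_ne H.ok.root.pos (Ne.symm h1)
  refine hr c (om ⟨0, H.ok.root.pos⟩).1 (om ⟨1, h2⟩).1 (fun t => mem_cj.1 ((om _).2 t))
    (fun t => mem_cj.1 ((om _).2 t)) ?_
  have h3 := ho.comp ![⟨0, H.ok.root.pos⟩, ⟨1, h2⟩] (by
    intro x y e
    fin_cases x <;> fin_cases y <;> simp_all)
  convert h3 using 1
  ext x
  fin_cases x <;> rfl

/-- **lattices in real groups of rank one with property (T)** -/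
theorem rankOne (n : ℕ) (𝔾 : Subgroup (GL (Fin n) ℂ)) (h : AbsSimple ℝ 𝔾)
    (hc : ¬ CompactSpace (pts ℝ 𝔾)) (hT : UN.HasTC (pts ℝ 𝔾)) (hr : RankOne (pts ℝ 𝔾))
    (Γ : Subgroup (pts ℝ 𝔾)) (hl : UN.IsLattice Γ) (hicc : UN.ICC Γ) : UN.SuperAll Γ := by
  obtain ⟨L, H, ho, e⟩ := lit_ls (UN.LocK.real (RingEquiv.refl ℝ) fun _ => rfl) h
    fun a => hc (isCompact_iff_compactSpace.1 a)
  haveI := H.lp.top
  haveI := H.lp.t2
  haveI := H.lp.lc
  haveI := H.lp.sc
  haveI := not_compactSpace_iff.1 hc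
  haveI := infinite_lattice (Γ := Γ) ⟨hl.disc, hl.covol⟩
  exact super_ls H ho (UN.kazT_of_hasTC hT) (fun E _ _ L' a b c d f =>
    P092RS.over_lp a.lp b c d (f ▸ e hr)) hicc Γ.subtype Subtype.val_injective
    (by rw [Subgroup.range_subtype]; exact hl)

end Vale.Agent.P092R1
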