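import Vale.Agent.P092R1.StP
import Vale.Agent.P092GI.Full
import Vale.Agent.P092PG.Main

/-!
P092 (helper26): products of groups of rank one.
-/

set_option linter.all false

namespace Vale.Agent.P092R1

open Vale.Agent.P092 Vale.Agent.P092GP Vale.Agent.P092GV Vale.Agent.P092GI

theorem ls_one {G : Type} [Group G] [TopologicalSpace G] (h : RankOnePts G)
    (hc : ¬ CompactSpace G) :
    ∃ (k : Type) (_ : NontriviallyNormedField k) (L : LD k G), L.LS ∧ L.R.r = 1 := by
  obtain ⟨k, a, K, n, 𝔾, b, r, e⟩ := h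
  haveI := IsAlgClosure.isAlgClosed k (K := K)
  obtain ⟨L, c, f⟩ := lit_all a (abs_of b) fun d =>
    hc (@Homeomorph.compactSpace _ _ _ _ d e.toHomeomorph.symm)
  obtain ⟨L', d, g, -⟩ := P092LS.ls_iso c e.toMulEquiv e.toHomeomorph.isHomeomorph
  exact ⟨k, _, L', d, g ▸ f r⟩

/-- **Q1 for products of groups of rank one** -/
theorem prodOne (I : Type) [Fintype I] (G : I → Type) [∀ i, Group (G i)]
    [∀ i, TopologicalSpace (G i)]
    (h : ∀ i, RankOnePts (G i) ∧ ¬ CompactSpace (G i) ∧ UN.HasTC (G i))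
    (Γ : Subgroup (∀ i, G i)) (hl : UN.IsLattice Γ) (hicc : UN.ICC Γ) : Q1 Γ := by
  choose k _ L a b using fun i => ls_one (h i).1 (h i).2.1
  exact q1_of hicc (super_pi P092PG.pgs a (fun i => core_one (b i))
    (fun i => UN.kazT_of_hasTC (h i).2.2) Γ hl hicc)

end Vale.Agent.P092R1
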