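import Vale.Agent.P092AG.Defs

/-!
P092 (helper26): rank at most one.
-/

namespace Vale.Agent.P092R1

open Vale.Agent.P092AG

/-- The split tori of `G ≤ GL_n(k)` have dimension at most one: two cocharacters `y`, `y'` of a conjugate
of the diagonal torus with values in `G` are linearly dependent. -/
def RankOne {k : Type} [Field k] {n : ℕ} (G : Subgroup (GL (Fin n) k)) : Prop :=
  ∀ (c : GL (Fin n) k) (y y' : Fin n → ℤ), (∀ t : kˣ, c⁻¹ * tor y t * c ∈ G) →
    (∀ t : kˣ, c⁻¹ * tor y' t * c ∈ G) → ¬ LinearIndependent ℤ ![y, y']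

end Vale.Agent.P092R1
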