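import Vale.Agent.P092GV.StG
import Vale.Agent.P092R1.St

/-!
P092 (helper26): groups of points of rank one. Only a definition.
-/

namespace Vale.Agent.P092R1

open Vale.Agent.P092.UN Vale.Agent.P092GV

/-- The topological group `G` is the group of `k`-points of a connected absolutely simple algebraic
group `𝔾` of `k`-rank at most one over a local field `k`. -/
inductive RankOnePts (G : Type) [Group G] [TopologicalSpace G] : Prop
  | mk (k : Type) [NontriviallyNormedField k] [ProperSpace k] (loc : LocK k)
      (K : Type) [Field K] [Algebra k K] [IsAlgClosure k K] (n : ℕ) (𝔾 : Subgroup (GL (Fin n) K))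
      (simple : AbsSimple k 𝔾) (rank : RankOne (points k 𝔾)) (e : G ≃ₜ* points k 𝔾) : RankOnePts G

end Vale.Agent.P092R1
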